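import Vale.Agent.P146.H355.K3D

/-!
(K3), definitions: the flip of one site, the conditional variance `sE = sech ^ 2 h₀` of its spin
given all the other spins, and its thermal average `rhoS`.
-/

open MeasureTheory ProbabilityTheory Filter Topology

namespace Vale.Agent.P146.H116

open Vale.Agent.P157.Lv Vale.Agent.P146.H425 Vale.Agent.P146.H325 Vale.Agent.P146.R1
  Vale.Agent.P146.H646 Vale.Agent.P146.H196 Vale.Agent.P146.H347 Vale.Agent.P146.H355

set_option linter.unusedSectionVars false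

variable {ι : Type} [Fintype ι] [DecidableEq ι] {Ω : Type} [MeasurableSpace Ω]

/-- the flip `τ` of one site with spin `σ` and row `R` -/
structure Flip (μ : Measure Ω) (S : ι → Ω → ℝ) (R : Finset ι) (τ : Ω → Ω) (σ : Ω → ℝ) :
    Prop where
  mp : MeasurePreserving τ μ μ
  inv : ∀ w, τ (τ w) = w
  meas : Measurable σ
  sq : ∀ w, σ w ^ 2 = 1
  odd : ∀ w, σ (τ w) = -σ w
  on : ∀ e ∈ R, ∀ w, S e (τ w) = -S e w
  off : ∀ e, e ∉ R → ∀ w, S e (τ w) = S e w

/-- `sech ^ 2 h₀`, the conditional variance of the spin given the orbit of the flip `τ` -/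
noncomputable def sE (k : ℝ) (S : ι → Ω → ℝ) (τ : Ω → Ω) (u : ι → ℝ) (w : Ω) : ℝ :=
  4 * (ezm k S u w * ezm k S u (τ w)) / (ezm k S u w + ezm k S u (τ w)) ^ 2

/-- the thermal average of `sech ^ 2 h₀` -/
noncomputable def rhoS (μ : Measure Ω) (k : ℝ) (S : ι → Ω → ℝ) (τ : Ω → Ω) (u : ι → ℝ) : ℝ :=
  avm μ k S (sE k S τ u) u

variable {μ : Measure Ω} {k M0 : ℝ} {S : ι → Ω → ℝ} {R : Finset ι} {τ : Ω → Ω} {σ : Ω → ℝ}

lemma sE_pos (u : ι → ℝ) (w : Ω) : 0 < sE k S τ u w := by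
  have h1 := ezm_pos (k := k) (S := S) u w
  have h2 := ezm_pos (k := k) (S := S) u (τ w)
  unfold sE
  positivity

lemma sE_le (u : ι → ℝ) (w : Ω) : sE k S τ u w ≤ 1 := by
  have h1 := ezm_pos (k := k) (S := S) u w
  have h2 := ezm_pos (k := k) (S := S) u (τ w)
  unfold sE
  rw [div_le_one (by positivity)]
  nlinarith [sq_nonneg (ezm k S u w - ezm k S u (τ w))]

lemma Flip.bm (h : Flip μ S R τ σ) : Bm σ := by
  refine Bm.of h.meas (C := 1) fun w => ?_
  have := h.sq w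
  rw [← sq_abs] at this
  nlinarith [abs_nonneg (σ w)]

lemma Flip.abs (h : Flip μ S R τ σ) (w : Ω) : |σ w| = 1 := by
  have := h.sq w
  rw [← sq_abs] at this
  nlinarith [abs_nonneg (σ w)]

lemma meas_ez (hG : GM μ S M0) (k : ℝ) (u : ι → ℝ) : Measurable (ezm k S u) := (hG.bez k u).meas

lemma bm_sE (hG : GM μ S M0) (hF : Flip μ S R τ σ) (k : ℝ) (u : ι → ℝ) : Bm (sE k S τ u) := by
  have h1 := meas_ez hG k u
  have h2 : Measurable fun w => ezm k S u (τ w) := h1.comp hF.mp.measurable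
  refine Bm.of (C := 1) ?_ fun w => ?_
  · unfold sE
    exact ((h1.mul h2).const_mul 4).div ((h1.add h2).pow_const 2)
  · rw [abs_of_pos (sE_pos u w)]
    exact sE_le u w

lemma rhoS_nonneg (hG : GM μ S M0) (u : ι → ℝ) : 0 ≤ rhoS μ k S τ u :=
  hG.av_nonneg k (fun w => (sE_pos u w).le) u

lemma rhoS_le (hG : GM μ S M0) (hF : Flip μ S R τ σ) (u : ι → ℝ) : rhoS μ k S τ u ≤ 1 := by
  have h := hG.av_mono k (bm_sE hG hF k u) (Bm.const 1) (fun w => sE_le u w) u
  rwa [hG.av_one] at h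

lemma sE_tau (hF : Flip μ S R τ σ) (u : ι → ℝ) (w : Ω) : sE k S τ u (τ w) = sE k S τ u w := by
  unfold sE
  rw [hF.inv, mul_comm (ezm k S u (τ w)), add_comm (ezm k S u (τ w))]

end Vale.Agent.P146.H116
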