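import Vale.Agent.P227.PL
import Vale.Agent.P146.R2.H533.Tr
import Mathlib.MeasureTheory.Constructions.Pi
import Mathlib.Tactic

/-! Prékopa–Leindler at a midpoint, for the Lebesgue and for the standard Gaussian measure. -/

open MeasureTheory ProbabilityTheory Set
open scoped ENNReal

namespace Vale.Agent.P146.H116

open Vale.Agent.P146.R2.H533

/-- Lebesgue measure, any finite index type, midpoint -/
theorem pl_leb {ι : Type*} [Fintype ι] (f g h : (ι → ℝ) → ℝ≥0∞) (hf : Measurable f)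
    (hg : Measurable g) (hh : Measurable h)
    (hfg : ∀ G D : ι → ℝ, f (G + D) * g (G - D) ≤ h G ^ 2) :
    (∫⁻ x, f x) * (∫⁻ x, g x) ≤ (∫⁻ x, h x) ^ 2 := by
  obtain ⟨n, ⟨e⟩⟩ : ∃ n : ℕ, Nonempty (Fin n ≃ ι) := ⟨_, ⟨(Fintype.equivFin ι).symm⟩⟩
  have hE := volume_measurePreserving_piCongrLeft (fun _ : ι => ℝ) e
  set E := MeasurableEquiv.piCongrLeft (fun _ : ι => ℝ) e with hEdef
  have happ : ∀ (x : Fin n → ℝ) (i : Fin n), E x (e i) = x i := by
    intro x i
    simp [hEdef, MeasurableEquiv.piCongrLeft, Equiv.piCongrLeft_apply_apply]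
  have htr : ∀ u : (ι → ℝ) → ℝ≥0∞, Measurable u → ∫⁻ x, u x = ∫⁻ x : Fin n → ℝ, u (E x) := by
    intro u hu
    rw [← hE.lintegral_comp hu]
  have key := Vale.Agent.P227.pl_pi (s := 1 / 2) (t := 1 / 2) (by norm_num) (by norm_num)
    (by norm_num) n (fun x => f (E x)) (fun x => g (E x)) (fun x => h (E x))
    (hf.comp E.measurable) (hg.comp E.measurable) (hh.comp E.measurable) (by
      intro x y
      have h1 := hfg (E ((1 / 2 : ℝ) • x + (1 / 2 : ℝ) • y)) (E ((1 / 2 : ℝ) • x - (1 / 2 : ℝ) • y))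
      have e1 : E ((1 / 2 : ℝ) • x + (1 / 2 : ℝ) • y) + E ((1 / 2 : ℝ) • x - (1 / 2 : ℝ) • y) =
          E x := by
        funext i
        obtain ⟨j, rfl⟩ := e.surjective i
        simp only [Pi.add_apply, happ, Pi.smul_apply, Pi.sub_apply, smul_eq_mul]
        ring
      have e2 : E ((1 / 2 : ℝ) • x + (1 / 2 : ℝ) • y) - E ((1 / 2 : ℝ) • x - (1 / 2 : ℝ) • y) =
          E y := by
        funext i
        obtain ⟨j, rfl⟩ := e.surjective i
        simp only [Pi.add_apply, happ, Pi.smul_apply, Pi.sub_apply, smul_eq_mul]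
        ring
      rw [e1, e2] at h1
      show f (E x) ^ (1 / 2 : ℝ) * g (E y) ^ (1 / 2 : ℝ) ≤
        h (E ((1 / 2 : ℝ) • x + (1 / 2 : ℝ) • y))
      rw [← ENNReal.mul_rpow_of_nonneg _ _ (by norm_num : (0 : ℝ) ≤ 1 / 2)]
      refine (ENNReal.rpow_le_rpow h1 (by norm_num)).trans (le_of_eq ?_)
      rw [← ENNReal.rpow_natCast, ← ENNReal.rpow_mul]
      norm_num)
  rw [htr f hf, htr g hg, htr h hh]
  rw [← ENNReal.mul_rpow_of_nonneg _ _ (by norm_num : (0 : ℝ) ≤ 1 / 2)] at key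
  have h2 := ENNReal.rpow_le_rpow key (by norm_num : (0 : ℝ) ≤ 2)
  rw [← ENNReal.rpow_mul] at h2
  norm_num at h2
  exact h2

theorem gphi_mid {ι : Type*} [Fintype ι] (G D : ι → ℝ) :
    gphi (G + D) * gphi (G - D) = gphi G ^ 2 * Real.exp (-∑ i, D i ^ 2) := by
  rw [gphi_eq, gphi_eq, gphi_eq, mul_pow, ← Real.exp_nat_mul]
  have e1 : ∀ a b c d : ℝ, a * b * (a * c) = a ^ 2 * (b * c) := by intros; ring
  rw [e1 _ _ _ 0, mul_assoc, ← Real.exp_add, ← Real.exp_add]
  congr 2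
  simp only [Pi.add_apply, Pi.sub_apply, Nat.cast_ofNat]
  have e2 : ∑ i, (G i + D i) ^ 2 + ∑ i, (G i - D i) ^ 2 =
      2 * ∑ i, G i ^ 2 + 2 * ∑ i, D i ^ 2 := by
    rw [← Finset.sum_add_distrib, Finset.mul_sum, Finset.mul_sum, ← Finset.sum_add_distrib]
    refine Finset.sum_congr rfl fun i _ => by ring
  linarith

/-- **Prékopa–Leindler at a midpoint for the standard Gaussian measure.** -/
theorem pl_gauss {ι : Type*} [Fintype ι] {f g h : (ι → ℝ) → ℝ} (hf : Measurable f)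
    (hg : Measurable g) (hh : Measurable h) (f0 : ∀ z, 0 ≤ f z) (g0 : ∀ z, 0 ≤ g z)
    (h0 : ∀ z, 0 ≤ h z)
    (ih : Integrable h (Measure.pi fun _ : ι => gaussianReal 0 1))
    (hle : ∀ G D : ι → ℝ, f (G + D) * g (G - D) ≤ h G ^ 2 * Real.exp (∑ i, D i ^ 2)) :
    (∫ z, f z ∂(Measure.pi fun _ : ι => gaussianReal 0 1)) *
      (∫ z, g z ∂(Measure.pi fun _ : ι => gaussianReal 0 1)) ≤
      (∫ z, h z ∂(Measure.pi fun _ : ι => gaussianReal 0 1)) ^ 2 := by
  have hgm : Measurable (gphi : (ι → ℝ) → ℝ) := by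
    have : (gphi : (ι → ℝ) → ℝ) = fun z =>
        (Real.sqrt (2 * Real.pi))⁻¹ ^ Fintype.card ι * Real.exp (-(∑ i, z i ^ 2) / 2) := by
      funext z
      exact gphi_eq z
    rw [this]
    fun_prop
  have hl : ∀ u : (ι → ℝ) → ℝ, Measurable u → (∀ z, 0 ≤ u z) →
      ∫⁻ z, ENNReal.ofReal (u z) ∂(Measure.pi fun _ : ι => gaussianReal 0 1) =
        ∫⁻ z, ENNReal.ofReal (gphi z * u z) := by
    intro u hu u0
    rw [pi_gauss, lintegral_withDensity_eq_lintegral_mul _ hgm.ennreal_ofReal hu.ennreal_ofReal]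
    refine lintegral_congr fun z => ?_
    rw [Pi.mul_apply, ENNReal.ofReal_mul (gphi_pos z).le]
  have key := pl_leb (fun z => ENNReal.ofReal (gphi z * f z)) (fun z => ENNReal.ofReal (gphi z * g z))
    (fun z => ENNReal.ofReal (gphi z * h z)) (hgm.mul hf).ennreal_ofReal
    (hgm.mul hg).ennreal_ofReal (hgm.mul hh).ennreal_ofReal (by
      intro G D
      show ENNReal.ofReal (gphi (G + D) * f (G + D)) * ENNReal.ofReal (gphi (G - D) * g (G - D)) ≤
        ENNReal.ofReal (gphi G * h G) ^ 2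
      rw [← ENNReal.ofReal_mul (mul_nonneg (gphi_pos _).le (f0 _)),
        ← ENNReal.ofReal_pow (mul_nonneg (gphi_pos _).le (h0 _))]
      refine ENNReal.ofReal_le_ofReal ?_
      have h1 := hle G D
      have h2 := gphi_mid G D
      calc gphi (G + D) * f (G + D) * (gphi (G - D) * g (G - D)) =
          (gphi (G + D) * gphi (G - D)) * (f (G + D) * g (G - D)) := by ring
        _ = gphi G ^ 2 * Real.exp (-∑ i, D i ^ 2) * (f (G + D) * g (G - D)) := by rw [h2]
        _ ≤ gphi G ^ 2 * Real.exp (-∑ i, D i ^ 2) * (h G ^ 2 * Real.exp (∑ i, D i ^ 2)) :=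
          mul_le_mul_of_nonneg_left h1 (by positivity)
        _ = (gphi G * h G) ^ 2 * (Real.exp (-∑ i, D i ^ 2) * Real.exp (∑ i, D i ^ 2)) := by ring
        _ = (gphi G * h G) ^ 2 := by
          rw [← Real.exp_add, neg_add_cancel, Real.exp_zero, mul_one])
  rw [← hl f hf f0, ← hl g hg g0, ← hl h hh h0] at key
  have hh' : ∫⁻ z, ENNReal.ofReal (h z) ∂(Measure.pi fun _ : ι => gaussianReal 0 1) =
      ENNReal.ofReal (∫ z, h z ∂(Measure.pi fun _ : ι => gaussianReal 0 1)) := by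
    rw [ofReal_integral_eq_lintegral_ofReal ih (Filter.Eventually.of_forall h0)]
  rw [hh', ← ENNReal.ofReal_pow (integral_nonneg h0)] at key
  rw [integral_eq_lintegral_of_nonneg_ae (Filter.Eventually.of_forall f0)
    hf.aestronglyMeasurable, integral_eq_lintegral_of_nonneg_ae (Filter.Eventually.of_forall g0)
    hg.aestronglyMeasurable, ← ENNReal.toReal_mul]
  exact ENNReal.toReal_le_of_le_ofReal (by positivity) key

end Vale.Agent.P146.H116
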