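import Mathlib.Analysis.SpecialFunctions.Log.Basic
import Mathlib.Analysis.SpecialFunctions.Trigonometric.Basic
import Mathlib.Analysis.Complex.Exponential
import Mathlib.Tactic

/-! Elementary second order bounds for `(cosh r + m sinh r) ^ (-p)`. -/

namespace Vale.Agent.P146.H116

lemma exp_two {y : ℝ} (hy : |y| ≤ 1) : 1 + y + y ^ 2 / 2 - 2 / 9 * |y| ^ 3 ≤ Real.exp y ∧
    Real.exp y ≤ 1 + y + y ^ 2 / 2 + 2 / 9 * |y| ^ 3 := by
  have h := Real.exp_bound hy (n := 3) (by norm_num)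
  have e : ∑ m ∈ Finset.range 3, y ^ m / (m.factorial : ℝ) = 1 + y + y ^ 2 / 2 := by
    simp [Finset.sum_range_succ, Nat.factorial]
  rw [e, abs_le] at h
  norm_num [Nat.factorial] at h
  constructor <;> linarith [h.1, h.2]

lemma q_le {r m : ℝ} (hr : |r| ≤ 1 / 4) (hm : |m| ≤ 1) :
    Real.cosh r + m * Real.sinh r ≤ 1 + r * m + r ^ 2 / 2 + 2 / 9 * |r| ^ 3 := by
  obtain ⟨h1, h2⟩ := abs_le.1 hm
  have a1 := (exp_two (y := r) (by linarith)).2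
  have a2 := (exp_two (y := -r) (by rw [abs_neg]; linarith)).2
  rw [abs_neg] at a2
  rw [Real.cosh_eq, Real.sinh_eq]
  nlinarith [mul_le_mul_of_nonneg_left a1 (by linarith : (0 : ℝ) ≤ 1 + m),
    mul_le_mul_of_nonneg_left a2 (by linarith : (0 : ℝ) ≤ 1 - m)]

lemma q_pos {r m : ℝ} (hm : |m| ≤ 1) : 0 < Real.cosh r + m * Real.sinh r := by
  obtain ⟨h1, h2⟩ := abs_le.1 hm
  rw [Real.cosh_eq, Real.sinh_eq]
  have h3 := Real.exp_pos r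
  have h4 := Real.exp_pos (-r)
  rcases le_total 0 m with h | h
  · nlinarith
  · nlinarith

lemma log_q_le {r m : ℝ} (hr : |r| ≤ 1 / 4) (hm : |m| ≤ 1) :
    Real.log (Real.cosh r + m * Real.sinh r) ≤
      r * m + r ^ 2 / 2 * (1 - m ^ 2) + 5 * |r| ^ 3 := by
  rw [Real.log_le_iff_le_exp (q_pos hm)]
  set t := |r| with ht
  have ht0 : 0 ≤ t := abs_nonneg r
  have hr2 : r ^ 2 = t ^ 2 := by rw [ht, sq_abs]
  have hm2 : 0 ≤ m ^ 2 := sq_nonneg m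
  have hm1 : m ^ 2 ≤ 1 := by
    rw [← sq_abs]
    nlinarith [abs_nonneg m]
  have hrm : |r * m| ≤ t := by
    rw [abs_mul]
    nlinarith [abs_nonneg m]
  obtain ⟨e, he⟩ : ∃ e : ℝ, e = r ^ 2 / 2 * (1 - m ^ 2) + 5 * t ^ 3 := ⟨_, rfl⟩
  have he0 : 0 ≤ e := by
    rw [he]
    have : 0 ≤ r ^ 2 / 2 * (1 - m ^ 2) := mul_nonneg (by positivity) (by linarith)
    positivity
  have he1 : e ≤ t ^ 2 / 2 + 5 * t ^ 3 := by
    rw [he, hr2]
    nlinarith [mul_nonneg (sq_nonneg t) hm2]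
  have he2 : e ≤ 7 / 16 * t := by
    have h1 : t ^ 2 ≤ 1 / 4 * t := by nlinarith
    have h2 : t ^ 3 ≤ 1 / 16 * t := by nlinarith
    linarith
  obtain ⟨y, hy⟩ : ∃ y : ℝ, y = r * m + e := ⟨_, rfl⟩
  have hya : |y| ≤ 23 / 16 * t := by
    rw [hy]
    calc |r * m + e| ≤ |r * m| + |e| := abs_add_le _ _
      _ ≤ t + 7 / 16 * t := by rw [abs_of_nonneg he0]; linarith
      _ = _ := by ring
  have hy1 : |y| ≤ 1 := by linarith
  have hy3 : |y| ^ 3 ≤ 3 * t ^ 3 := by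
    have h1 := pow_le_pow_left₀ (abs_nonneg y) hya 3
    have h2 : (23 / 16 * t) ^ 3 = (23 / 16) ^ 3 * t ^ 3 := by ring
    have h3 : 0 ≤ t ^ 3 := by positivity
    nlinarith
  have h1 := (exp_two hy1).1
  have h2 := q_le hr hm
  have e1 : r * m + r ^ 2 / 2 * (1 - m ^ 2) + 5 * t ^ 3 = y := by rw [hy, he]; ring
  rw [e1]
  refine h2.trans (le_trans ?_ h1)
  have h3 : y ^ 2 / 2 ≥ (r * m) ^ 2 / 2 - t * e := by
    rw [hy]
    have h4 : -t ≤ r * m := (abs_le.1 hrm).1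
    nlinarith [mul_nonneg (by linarith : 0 ≤ r * m + t) he0, sq_nonneg e]
  have h5 : t * e ≤ 7 / 4 * t ^ 3 := by
    have h6 := mul_le_mul_of_nonneg_left he1 ht0
    have h7 : t ^ 4 ≤ 1 / 4 * t ^ 3 := by
      have : 0 ≤ t ^ 3 := by positivity
      nlinarith
    nlinarith
  have h8 : 0 ≤ t ^ 3 := by positivity
  rw [← ht]
  have e2 : y = r * m + r ^ 2 / 2 * (1 - m ^ 2) + 5 * t ^ 3 := e1.symm
  have e3 : (r * m) ^ 2 = r ^ 2 * m ^ 2 := by ring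
  nlinarith

lemma tay_e {t m p a : ℝ} (ht0 : 0 ≤ t) (ht : t ≤ 1 / 4) (hm : m ^ 2 ≤ 1) (hp1 : 1 ≤ p)
    (hp2 : p ≤ 2) (ha : |a| ≤ 1) :
    |-p * (t ^ 2 / 2 * (1 - m ^ 2)) + t ^ 2 / 2 * a - p * (5 * t ^ 3)| ≤ 4 * t ^ 2 := by
  have hm2 : 0 ≤ m ^ 2 := sq_nonneg m
  have h2p : 0 ≤ t ^ 2 := by positivity
  have h3p : 0 ≤ t ^ 3 := by positivity
  have ht3 : t ^ 3 ≤ 1 / 4 * t ^ 2 := by
    have : t ^ 3 = t * t ^ 2 := by ring
    rw [this]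
    exact mul_le_mul_of_nonneg_right ht h2p
  obtain ⟨ha1, ha2⟩ := abs_le.1 ha
  have g0 : 0 ≤ t ^ 2 / 2 * (1 - m ^ 2) := mul_nonneg (by positivity) (by linarith)
  have g1 : 0 ≤ p * (t ^ 2 / 2 * (1 - m ^ 2)) := mul_nonneg (by linarith) g0
  have g2 : 0 ≤ p * (5 * t ^ 3) := by positivity
  have g3 : t ^ 2 / 2 * (1 - m ^ 2) ≤ t ^ 2 / 2 := by
    have := mul_le_mul_of_nonneg_left (by linarith : 1 - m ^ 2 ≤ 1)
      (by positivity : (0 : ℝ) ≤ t ^ 2 / 2)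
    linarith
  have g4 : p * (t ^ 2 / 2 * (1 - m ^ 2)) ≤ t ^ 2 := by
    have := mul_le_mul hp2 g3 g0 (by norm_num)
    linarith
  have g5 : t ^ 2 / 2 * a ≤ t ^ 2 / 2 := by
    have := mul_le_mul_of_nonneg_left ha2 (by positivity : (0 : ℝ) ≤ t ^ 2 / 2)
    linarith
  have g6 : -(t ^ 2 / 2) ≤ t ^ 2 / 2 * a := by
    have := mul_le_mul_of_nonneg_left ha1 (by positivity : (0 : ℝ) ≤ t ^ 2 / 2)
    linarith
  have g7 : p * (5 * t ^ 3) ≤ 5 / 2 * t ^ 2 := by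
    have := mul_le_mul_of_nonneg_right hp2 (by positivity : (0 : ℝ) ≤ 5 * t ^ 3)
    linarith
  rw [abs_le]
  constructor <;> linarith

/-- **second order lower bound** -/
lemma tay {r m p a : ℝ} (hr : |r| ≤ 1 / 4) (hm : |m| ≤ 1) (hp1 : 1 ≤ p) (hp2 : p ≤ 2)
    (ha : |a| ≤ 1) : 1 - p * (r * m) + r ^ 2 / 2 * (p ^ 2 * m ^ 2 - p * (1 - m ^ 2) + a) -
      24 * |r| ^ 3 ≤
    Real.exp (-p * Real.log (Real.cosh r + m * Real.sinh r) + r ^ 2 / 2 * a) := by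
  have h0 := log_q_le hr hm
  set t := |r| with ht
  have ht0 : 0 ≤ t := abs_nonneg r
  have hr2 : r ^ 2 = t ^ 2 := by rw [ht, sq_abs]
  have hm1 : m ^ 2 ≤ 1 := by
    rw [← sq_abs]
    nlinarith [abs_nonneg m]
  have hrm : |r * m| ≤ t := by
    rw [abs_mul]
    nlinarith [abs_nonneg m]
  obtain ⟨e, he⟩ : ∃ e : ℝ, e = -p * (t ^ 2 / 2 * (1 - m ^ 2)) + t ^ 2 / 2 * a - p * (5 * t ^ 3) :=
    ⟨_, rfl⟩
  obtain ⟨y, hy⟩ : ∃ y : ℝ, y = -(p * (r * m)) + e := ⟨_, rfl⟩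
  have h3p : 0 ≤ t ^ 3 := by positivity
  have h2p : 0 ≤ t ^ 2 := by positivity
  have ht2 : t ^ 2 ≤ 1 / 4 * t := by nlinarith
  have hea : |e| ≤ 4 * t ^ 2 := by
    rw [he]
    exact tay_e ht0 hr hm1 hp1 hp2 ha
  have hpr : |p * (r * m)| ≤ 2 * t := by
    rw [abs_mul, abs_of_nonneg (by linarith : (0 : ℝ) ≤ p)]
    exact mul_le_mul hp2 hrm (abs_nonneg _) (by norm_num)
  have hya : |y| ≤ 3 * t := by
    rw [hy]
    calc |-(p * (r * m)) + e| ≤ |-(p * (r * m))| + |e| := abs_add_le _ _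
      _ ≤ 2 * t + 4 * t ^ 2 := by rw [abs_neg]; linarith
      _ ≤ _ := by linarith
  have hy1 : |y| ≤ 1 := by linarith
  have hy3 : |y| ^ 3 ≤ 27 * t ^ 3 := by
    have h1 := pow_le_pow_left₀ (abs_nonneg y) hya 3
    have h2 : (3 * t) ^ 3 = 27 * t ^ 3 := by ring
    linarith
  have h1 := (exp_two hy1).1
  have h2 : y ≤ -p * Real.log (Real.cosh r + m * Real.sinh r) + r ^ 2 / 2 * a := by
    have := mul_le_mul_of_nonneg_left h0 (by linarith : (0 : ℝ) ≤ p)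
    rw [hy, he, hr2]
    rw [hr2] at this
    linarith
  refine le_trans ?_ (h1.trans (Real.exp_le_exp.2 h2))
  have h3 : (p * (r * m)) ^ 2 / 2 - 8 * t ^ 3 ≤ y ^ 2 / 2 := by
    have g1 : y ^ 2 = (p * (r * m)) ^ 2 - 2 * (p * (r * m) * e) + e ^ 2 := by rw [hy]; ring
    have g2 : |p * (r * m) * e| ≤ 2 * t * (4 * t ^ 2) := by
      rw [abs_mul]
      exact mul_le_mul hpr hea (abs_nonneg _) (by positivity)
    have g3 := (abs_le.1 g2).2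
    have g4 : 2 * t * (4 * t ^ 2) = 8 * t ^ 3 := by ring
    have g5 := sq_nonneg e
    linarith
  have e4 : p * (5 * t ^ 3) ≤ 10 * t ^ 3 := by
    have := mul_le_mul_of_nonneg_right hp2 (by positivity : (0 : ℝ) ≤ 5 * t ^ 3)
    linarith
  have e6 : 1 - p * (r * m) + r ^ 2 / 2 * (p ^ 2 * m ^ 2 - p * (1 - m ^ 2) + a) - 24 * t ^ 3 =
    1 + y + (p * (r * m)) ^ 2 / 2 + p * (5 * t ^ 3) - 24 * t ^ 3 := by
    rw [hy, he, mul_pow p, mul_pow r, hr2]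
    ring
  rw [e6]
  linarith

end Vale.Agent.P146.H116
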