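import Vale.Agent.P146.H116.K3A
import Vale.Agent.P146.H116.PLM
import Vale.Agent.P146.H116.Tay

/-!
(K3), part A: second order of the Prékopa–Leindler inequality for the weight of a pair of
replicas; the remainder is the thermal average `rhoS`.
-/

open MeasureTheory ProbabilityTheory Filter Topology

namespace Vale.Agent.P146.H116

open Vale.Agent.P157.Lv Vale.Agent.P146.H425 Vale.Agent.P146.H325 Vale.Agent.P146.R1
  Vale.Agent.P146.H646 Vale.Agent.P146.H196 Vale.Agent.P146.H347 Vale.Agent.P146.H355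

set_option linter.unusedSectionVars false

variable {ι : Type} [Fintype ι] [DecidableEq ι] {Ω : Type} [MeasurableSpace Ω]

/-- the inequality at the midpoint -/
def MidS (μ : Measure Ω) (k : ℝ) (S : ι → Ω → ℝ) (τ : Ω → Ω) (σ : Ω → ℝ) (x c1 : ℝ) : Prop :=
  ∀ δ : ℝ, 0 < δ → ∃ r0 : ℝ, 0 < r0 ∧ ∀ r : ℝ, |r| ≤ r0 → ∀ u D : ι → ℝ,
    r ^ 2 / 2 * (c1 * rhoS μ k S τ (u + D) + c1 * rhoS μ k S τ (u - D) - 2 * δ) ≤
      (2 - x) * Real.log (avm μ k S (fun w => Real.exp (r * σ w + k * ∑ e, S e w * D e)) u *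
        avm μ k S (fun w => Real.exp (-(r * σ w + k * ∑ e, S e w * D e))) u) + ∑ e, D e ^ 2

variable {μ : Measure Ω} {k M0 x c1 : ℝ} {S : ι → Ω → ℝ} {R K : Finset ι} {τ : Ω → Ω} {σ : Ω → ℝ}

lemma exp_spin {s r : ℝ} (hs : s ^ 2 = 1) : Real.exp (r * s) = Real.cosh r + s * Real.sinh r := by
  have h : (s - 1) * (s + 1) = 0 := by linarith [hs, (by ring : (s - 1) * (s + 1) = s ^ 2 - 1)]
  rcases mul_eq_zero.1 h with h1 | h1
  · have : s = 1 := by linarith
    subst this
    rw [mul_one, one_mul, Real.cosh_add_sinh]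
  · have : s = -1 := by linarith
    subst this
    rw [show r * -1 = -r by ring, show Real.cosh r + -1 * Real.sinh r =
      Real.cosh r - Real.sinh r by ring, Real.cosh_sub_sinh]

lemma av_exp (hG : GM μ S M0) (hF : Flip μ S R τ σ) (r : ℝ) (u : ι → ℝ) :
    avm μ k S (fun w => Real.exp (r * σ w)) u =
      Real.cosh r + avm μ k S σ u * Real.sinh r := by
  have h1 : (fun w => Real.exp (r * σ w)) = fun w => Real.cosh r + Real.sinh r * σ w := by
    funext w
    rw [exp_spin (hF.sq w), mul_comm (σ w)]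
  rw [h1, hG.av_add k (Bm.const _) (hF.bm.const_mul _), hG.av_const, H196.av_mul, mul_comm]

lemma abs_av (hG : GM μ S M0) (hF : Flip μ S R τ σ) (u : ι → ℝ) : |avm μ k S σ u| ≤ 1 :=
  hG.abs_av_le k hF.meas (fun w => (hF.abs w).le) u

lemma ezm_add (u D : ι → ℝ) (w : Ω) :
    ezm k S (u + D) w = ezm k S u w * Real.exp (k * ∑ e, S e w * D e) := by
  unfold ezm
  rw [← Real.exp_add]
  congr 1
  rw [← mul_add, ← Finset.sum_add_distrib]
  congr 1
  refine Finset.sum_congr rfl fun e _ => ?_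
  rw [Pi.add_apply]
  ring

lemma z_av (hG : GM μ S M0) {h : Ω → ℝ} (u D : ι → ℝ) :
    Zm μ k S (u + D) * avm μ k S h (u + D) =
      Zm μ k S u * avm μ k S (fun w => Real.exp (k * ∑ e, S e w * D e) * h w) u := by
  unfold avm
  rw [mul_div_cancel₀ _ (hG.Z_pos k _).ne', mul_div_cancel₀ _ (hG.Z_pos k _).ne']
  refine integral_congr_ae (Filter.Eventually.of_forall fun w => ?_)
  show ezm k S (u + D) w * h w = _
  rw [ezm_add]
  ring

/-- the logarithm of the partition function with a source -/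
lemma log_z (hG : GM μ S M0) (hF : Flip μ S R τ σ) (r : ℝ) (u D : ι → ℝ) :
    lzm μ k S (u + D) + Real.log (Real.cosh r + avm μ k S σ (u + D) * Real.sinh r) =
      lzm μ k S u +
        Real.log (avm μ k S (fun w => Real.exp (r * σ w + k * ∑ e, S e w * D e)) u) := by
  have h0 := hG.Z_pos k (u + D)
  have h1 : 0 < Real.cosh r + avm μ k S σ (u + D) * Real.sinh r := q_pos (abs_av hG hF _)
  have h2 := z_av (k := k) hG (h := fun w => Real.exp (r * σ w)) u D
  have h3 : (fun w => Real.exp (k * ∑ e, S e w * D e) * Real.exp (r * σ w)) =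
      fun w => Real.exp (r * σ w + k * ∑ e, S e w * D e) := by
    funext w
    rw [← Real.exp_add, add_comm]
  rw [h3, av_exp hG hF] at h2
  have h4 : 0 < avm μ k S (fun w => Real.exp (r * σ w + k * ∑ e, S e w * D e)) u := by
    have h5 : 0 < Zm μ k S u *
        avm μ k S (fun w => Real.exp (r * σ w + k * ∑ e, S e w * D e)) u := by
      rw [← h2]
      exact mul_pos h0 h1
    exact (mul_pos_iff_of_pos_left (hG.Z_pos k u)).1 h5
  unfold lzm
  rw [← Real.log_mul h0.ne' h1.ne', ← Real.log_mul (hG.Z_pos k u).ne' h4.ne', h2]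

end Vale.Agent.P146.H116
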