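import Vale.Agent.P146.H116.K3B

/-!
(K3), part A: second order of the Prékopa–Leindler inequality for the weight of a pair of
replicas; the remainder is the thermal average `rhoS`.
-/

open MeasureTheory ProbabilityTheory Filter Topology

namespace Vale.Agent.P146.H116

open Vale.Agent.P157.Lv Vale.Agent.P146.H425 Vale.Agent.P146.H325 Vale.Agent.P146.R1
  Vale.Agent.P146.H646 Vale.Agent.P146.H196 Vale.Agent.P146.H347 Vale.Agent.P146.H355

set_option linter.unusedSectionVars false

variable {ι : Type} [Fintype ι] [DecidableEq ι] {Ω : Type} [MeasurableSpace Ω]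
variable {μ : Measure Ω} {k M0 x c1 : ℝ} {S : ι → Ω → ℝ} {R K : Finset ι} {τ : Ω → Ω} {σ : Ω → ℝ}

/-- the weight of a pair with the source -/
lemma w2_src (hG : GM μ S M0) (hF : Flip μ S R τ σ) (x r : ℝ) (u D : ι → ℝ) (q : Ω × Ω) :
    W2 μ k S x q (u + D) *
        Real.exp (-(2 - x) * Real.log (Real.cosh r + avm μ k S σ (u + D) * Real.sinh r)) =
      W2 μ k S x q u * Real.exp (k * ∑ e, S e q.1 * D e + k * ∑ e, S e q.2 * D e) *
        Real.exp (-(2 - x) *
          Real.log (avm μ k S (fun w => Real.exp (r * σ w + k * ∑ e, S e w * D e)) u)) := by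
  have h := log_z (k := k) hG hF r u D
  unfold W2 Zxm
  rw [ezm_add, ezm_add, Real.exp_add]
  have h1 : Real.exp ((x - 2) * lzm μ k S (u + D)) *
      Real.exp (-(2 - x) * Real.log (Real.cosh r + avm μ k S σ (u + D) * Real.sinh r)) =
      Real.exp ((x - 2) * lzm μ k S u) * Real.exp (-(2 - x) *
          Real.log (avm μ k S (fun w => Real.exp (r * σ w + k * ∑ e, S e w * D e)) u)) := by
    rw [← Real.exp_add, ← Real.exp_add]
    congr 1
    linear_combination (x - 2) * h
  linear_combination (ezm k S u q.1 * Real.exp (k * ∑ e, S e q.1 * D e) *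
    (ezm k S u q.2 * Real.exp (k * ∑ e, S e q.2 * D e))) * h1

/-- the product of the weights at `u + D`, `u - D` -/
lemma w2_mul (hG : GM μ S M0) (hF : Flip μ S R τ σ) (x r : ℝ) (u D : ι → ℝ) (q : Ω × Ω) :
    W2 μ k S x q (u + D) *
        Real.exp (-(2 - x) * Real.log (Real.cosh r + avm μ k S σ (u + D) * Real.sinh r)) *
      (W2 μ k S x q (u - D) *
        Real.exp (-(2 - x) * Real.log (Real.cosh (-r) + avm μ k S σ (u - D) * Real.sinh (-r)))) =
      W2 μ k S x q u ^ 2 * Real.exp (-(2 - x) *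
          Real.log (avm μ k S (fun w => Real.exp (r * σ w + k * ∑ e, S e w * D e)) u *
            avm μ k S (fun w => Real.exp (-(r * σ w + k * ∑ e, S e w * D e))) u)) := by
  have h1 := w2_src (k := k) hG hF x r u D q
  have h2 := w2_src (k := k) hG hF x (-r) u (-D) q
  have e1 : ∀ w, ∑ e, S e w * (-D) e = -∑ e, S e w * D e := fun w => by
    rw [← Finset.sum_neg_distrib]
    exact Finset.sum_congr rfl fun e _ => by rw [Pi.neg_apply]; ring
  have e2 : (fun w => Real.exp (-r * σ w + k * ∑ e, S e w * (-D) e)) =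
      fun w => Real.exp (-(r * σ w + k * ∑ e, S e w * D e)) := by
    funext w
    rw [e1]
    congr 1
    ring
  rw [← sub_eq_add_neg, e2, e1, e1] at h2
  have h3 : ∀ r : ℝ, ∀ D : ι → ℝ,
      0 < avm μ k S (fun w => Real.exp (r * σ w + k * ∑ e, S e w * D e)) u := fun r D => by
    have h5 : 0 < Zm μ k S u *
        avm μ k S (fun w => Real.exp (r * σ w + k * ∑ e, S e w * D e)) u := by
      have h2 := z_av (k := k) hG (h := fun w => Real.exp (r * σ w)) u D
      have h3 : (fun w => Real.exp (k * ∑ e, S e w * D e) * Real.exp (r * σ w)) =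
          fun w => Real.exp (r * σ w + k * ∑ e, S e w * D e) := by
        funext w
        rw [← Real.exp_add, add_comm]
      rw [h3, av_exp hG hF] at h2
      rw [← h2]
      exact mul_pos (hG.Z_pos k _) (q_pos (abs_av hG hF _))
    exact (mul_pos_iff_of_pos_left (hG.Z_pos k u)).1 h5
  have h4 := h3 r D
  have h5 := h3 (-r) (-D)
  rw [e2] at h5
  rw [h1, h2, Real.log_mul h4.ne' h5.ne', mul_add, Real.exp_add, Real.exp_add, Real.exp_add]
  have e3 : Real.exp (k * ∑ e, S e q.1 * D e) * Real.exp (k * -∑ e, S e q.1 * D e) = 1 := by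
    rw [← Real.exp_add, ← Real.exp_zero]
    congr 1
    ring
  have e4 : Real.exp (k * ∑ e, S e q.2 * D e) * Real.exp (k * -∑ e, S e q.2 * D e) = 1 := by
    rw [← Real.exp_add, ← Real.exp_zero]
    congr 1
    ring
  linear_combination
    (W2 μ k S x q u ^ 2 *
      Real.exp (-(2 - x) * Real.log (avm μ k S (fun w => Real.exp (r * σ w + k * ∑ e, S e w * D e)) u)) *
      Real.exp (-(2 - x) *
        Real.log (avm μ k S (fun w => Real.exp (-(r * σ w + k * ∑ e, S e w * D e))) u)) *
      (Real.exp (k * ∑ e, S e q.2 * D e) * Real.exp (k * -∑ e, S e q.2 * D e))) * e3 +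
    (W2 μ k S x q u ^ 2 *
      Real.exp (-(2 - x) * Real.log (avm μ k S (fun w => Real.exp (r * σ w + k * ∑ e, S e w * D e)) u)) *
      Real.exp (-(2 - x) *
        Real.log (avm μ k S (fun w => Real.exp (-(r * σ w + k * ∑ e, S e w * D e))) u))) * e4

/-- the functions of the Prékopa–Leindler inequality -/
noncomputable def fR (μ : Measure Ω) (k : ℝ) (S : ι → Ω → ℝ) (τ : Ω → Ω) (σ : Ω → ℝ)
    (x c1 δ r : ℝ) (q : Ω × Ω) (u : ι → ℝ) : ℝ :=
  W2 μ k S x q u * Real.exp (-(2 - x) * Real.log (Real.cosh r + avm μ k S σ u * Real.sinh r) +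
    r ^ 2 / 2 * (c1 * rhoS μ k S τ u - δ))

lemma fR_mul (hG : GM μ S M0) (hF : Flip μ S R τ σ) {δ r0 r : ℝ}
    (hm : ∀ r : ℝ, |r| ≤ r0 → ∀ u D : ι → ℝ,
      r ^ 2 / 2 * (c1 * rhoS μ k S τ (u + D) + c1 * rhoS μ k S τ (u - D) - 2 * δ) ≤
      (2 - x) * Real.log (avm μ k S (fun w => Real.exp (r * σ w + k * ∑ e, S e w * D e)) u *
        avm μ k S (fun w => Real.exp (-(r * σ w + k * ∑ e, S e w * D e))) u) + ∑ e, D e ^ 2)
    (hr : |r| ≤ r0) (u D : ι → ℝ) (q : Ω × Ω) :
    fR μ k S τ σ x c1 δ r q (u + D) * fR μ k S τ σ x c1 δ (-r) q (u - D) ≤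
      W2 μ k S x q u ^ 2 * Real.exp (∑ e, D e ^ 2) := by
  have h1 := w2_mul (k := k) hG hF x r u D q
  have h2 := hm r hr u D
  unfold fR
  rw [Real.exp_add, Real.exp_add]
  have e1 : ∀ a b c d e f : ℝ, a * (b * c) * (d * (e * f)) = a * b * (d * e) * (c * f) := by
    intros; ring
  rw [e1, h1, mul_assoc, ← Real.exp_add, ← Real.exp_add, neg_sq]
  refine mul_le_mul_of_nonneg_left (Real.exp_le_exp.2 ?_) (by positivity)
  linarith

lemma glue_add (K : Finset ι) (z G D : ι → ℝ) :
    glue K z (G + D) = glue K z G + glue K 0 D := by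
  funext e
  by_cases h : e ∈ K <;> simp [glue, h]

lemma glue_sub (K : Finset ι) (z G D : ι → ℝ) :
    glue K z (G - D) = glue K z G - glue K 0 D := by
  funext e
  by_cases h : e ∈ K <;> simp [glue, h]

lemma glue_zero_sq (K : Finset ι) (D : ι → ℝ) : ∑ e, glue K 0 D e ^ 2 ≤ ∑ e, D e ^ 2 := by
  refine Finset.sum_le_sum fun e _ => ?_
  by_cases h : e ∈ K
  · have e1 : glue K 0 D e = 0 := by simp [glue, h]
    rw [e1]
    nlinarith [sq_nonneg (D e)]
  · simp [glue, h]

lemma meas_ez2 (hG : GM μ S M0) (k : ℝ) :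
    Measurable fun q : (ι → ℝ) × Ω => ezm k S q.1 q.2 :=
  (meas_ezm hG k).comp (measurable_snd.prodMk measurable_fst)

/-- the thermal average `rhoS` is a bounded measurable function -/
lemma bm_rhoS (hG : GM μ S M0) (hF : Flip μ S R τ σ) (k : ℝ) : BM (rhoS μ k S τ) := by
  have := hG.fin
  refine ⟨?_, 1, fun z => ?_⟩
  · have h1 := meas_ez2 hG k
    have h2 : Measurable fun q : (ι → ℝ) × Ω => ezm k S q.1 (τ q.2) :=
      h1.comp (measurable_fst.prodMk (hF.mp.measurable.comp measurable_snd))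
    have h3 : StronglyMeasurable fun q : (ι → ℝ) × Ω => ezm k S q.1 q.2 * sE k S τ q.1 q.2 := by
      refine (h1.mul ?_).stronglyMeasurable
      unfold sE
      exact ((h1.mul h2).const_mul 4).div ((h1.add h2).pow_const 2)
    have h4 : Measurable fun u => ∫ w, ezm k S u w * sE k S τ u w ∂μ :=
      h3.integral_prod_right.measurable
    have h5 : Measurable fun u => Zm μ k S u := by
      have h6 : StronglyMeasurable fun q : (ι → ℝ) × Ω => ezm k S q.1 q.2 := h1.stronglyMeasurable
      exact h6.integral_prod_right.measurable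
    exact h4.div h5
  · rw [abs_of_nonneg (rhoS_nonneg hG z)]
    exact rhoS_le hG hF z

end Vale.Agent.P146.H116
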