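import Vale.Agent.P146.H116.K3C

/-!
(K3), parts A and B: the second order inequality for a pair of replicas, and its sum over the
pairs with different spins.
-/

open MeasureTheory ProbabilityTheory Filter Topology

namespace Vale.Agent.P146.H116

open Vale.Agent.P157.Lv Vale.Agent.P146.H425 Vale.Agent.P146.H325 Vale.Agent.P146.R1
  Vale.Agent.P146.H646 Vale.Agent.P146.H196 Vale.Agent.P146.H347 Vale.Agent.P146.H355

set_option linter.unusedSectionVars false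

variable {ι : Type} [Fintype ι] [DecidableEq ι] {Ω : Type} [MeasurableSpace Ω]
variable {μ : Measure Ω} {k M0 x c1 : ℝ} {S : ι → Ω → ℝ} {R K : Finset ι} {τ : Ω → Ω} {σ : Ω → ℝ}

/-- the function of the second order -/
noncomputable def kapT (μ : Measure Ω) (k : ℝ) (S : ι → Ω → ℝ) (τ : Ω → Ω) (σ : Ω → ℝ)
    (p c1 : ℝ) (u : ι → ℝ) : ℝ :=
  p ^ 2 * avm μ k S σ u ^ 2 - p * (1 - avm μ k S σ u ^ 2) + c1 * rhoS μ k S τ u

lemma bm_kapT (hG : GM μ S M0) (hF : Flip μ S R τ σ) (k p c1 : ℝ) :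
    BM (kapT μ k S τ σ p c1) := by
  have h1 : BM (avm μ k S σ) := hG.bm_avm k hF.bm
  have h2 : BM fun u => avm μ k S σ u ^ 2 := by
    simpa only [pow_two] using h1.mul h1
  unfold kapT
  exact (((BM.const _).mul h2).sub ((BM.const _).mul ((BM.const 1).sub h2))).add
    ((BM.const _).mul (bm_rhoS hG hF k))

lemma real_step {A M Q p δ r N1 N2 : ℝ} (hA : 0 < A) (hr : 0 < r) (hr1 : r ≤ 1 / 16)
    (hp1 : 1 ≤ p) (hp2 : p ≤ 2) (hM : |M| ≤ 1) (hQ : -2 ≤ Q) (hδ : δ ≤ 1)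
    (h1 : A * (1 - p * (r * M) + r ^ 2 / 2 * (Q - δ) - 24 * r ^ 3) ≤ N1)
    (h2 : A * (1 + p * (r * M) + r ^ 2 / 2 * (Q - δ) - 24 * r ^ 3) ≤ N2)
    (h : N1 * N2 ≤ A ^ 2) : Q ≤ p ^ 2 * M ^ 2 + δ + 48 * r := by
  obtain ⟨y, hy⟩ : ∃ y : ℝ, y = r ^ 2 / 2 * (Q - δ) - 24 * r ^ 3 := ⟨_, rfl⟩
  obtain ⟨s, hs⟩ : ∃ s : ℝ, s = p * (r * M) := ⟨_, rfl⟩
  have h3 : r ^ 3 ≤ 1 / 16 * r ^ 2 := by nlinarith [sq_nonneg r]
  have h4 : r ^ 2 ≤ 1 / 256 := by nlinarith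
  have hy1 : -(1 / 2) ≤ y := by
    have := mul_le_mul_of_nonneg_left (by linarith : (-3 : ℝ) ≤ Q - δ)
      (by positivity : (0 : ℝ) ≤ r ^ 2 / 2)
    rw [hy]
    linarith
  have hs1 : |s| ≤ 1 / 8 := by
    rw [hs, abs_mul, abs_mul, abs_of_pos hr, abs_of_nonneg (by linarith : 0 ≤ p)]
    have h5 : r * |M| ≤ 1 / 16 := by nlinarith [abs_nonneg M]
    have h6 : 0 ≤ r * |M| := by positivity
    nlinarith
  rw [abs_le] at hs1
  have h1' : A * (1 - s + y) ≤ N1 := by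
    refine le_trans (le_of_eq ?_) h1
    rw [hs, hy]
    ring
  have h2' : A * (1 + s + y) ≤ N2 := by
    refine le_trans (le_of_eq ?_) h2
    rw [hs, hy]
    ring
  have h5 : A * (1 - s + y) * (A * (1 + s + y)) ≤ A ^ 2 := by
    refine le_trans (mul_le_mul h1' h2' ?_ ?_) h
    · exact mul_nonneg hA.le (by linarith)
    · exact le_trans (mul_nonneg hA.le (by linarith)) h1'
  have h6 : (1 - s + y) * (1 + s + y) ≤ 1 := by
    by_contra hc
    have := mul_lt_mul_of_pos_left (not_le.1 hc) (by positivity : 0 < A ^ 2)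
    linarith [h5, (by ring : A * (1 - s + y) * (A * (1 + s + y)) =
      A ^ 2 * ((1 - s + y) * (1 + s + y)))]
  have h7 : 2 * y ≤ s ^ 2 := by nlinarith [sq_nonneg y]
  have h8 : s ^ 2 = r ^ 2 * (p ^ 2 * M ^ 2) := by rw [hs]; ring
  rw [h8, hy] at h7
  have h9 : r ^ 2 * (Q - δ - 48 * r) ≤ r ^ 2 * (p ^ 2 * M ^ 2) := by
    linarith [h7, (by ring : r ^ 2 * (Q - δ - 48 * r) =
      2 * (r ^ 2 / 2 * (Q - δ) - 24 * r ^ 3))]
  have := le_of_mul_le_mul_left h9 (by positivity)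
  linarith

lemma q_ge {r m : ℝ} (hm : |m| ≤ 1) : Real.exp (-|r|) ≤ Real.cosh r + m * Real.sinh r := by
  have h1 : Real.cosh r = Real.cosh |r| := (Real.cosh_abs r).symm
  have h2 : |Real.sinh r| = Real.sinh |r| := Real.abs_sinh r
  have h3 : -Real.sinh |r| ≤ m * Real.sinh r := by
    have h4 : |m * Real.sinh r| ≤ Real.sinh |r| := by
      rw [abs_mul, h2]
      have := Real.sinh_nonneg_iff.2 (abs_nonneg r)
      nlinarith
    exact (abs_le.1 h4).1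
  rw [h1, ← Real.cosh_sub_sinh]
  linarith

lemma bm_E (hG : GM μ S M0) (hF : Flip μ S R τ σ) (k r : ℝ) {p δ : ℝ} (hp : 0 ≤ p)
    (hc0 : 0 ≤ c1) (hδ : 0 ≤ δ) :
    BM fun u => Real.exp (-p * Real.log (Real.cosh r + avm μ k S σ u * Real.sinh r) +
      r ^ 2 / 2 * (c1 * rhoS μ k S τ u - δ)) := by
  have h1 : BM (avm μ k S σ) := hG.bm_avm k hF.bm
  have h2 := bm_rhoS hG hF k
  refine ⟨?_, Real.exp (p * |r| + r ^ 2 / 2 * c1), fun u => ?_⟩
  · have := h1.meas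
    have := h2.meas
    fun_prop
  · rw [abs_of_pos (Real.exp_pos _)]
    refine Real.exp_le_exp.2 ?_
    have h3 : -|r| ≤ Real.log (Real.cosh r + avm μ k S σ u * Real.sinh r) := by
      rw [Real.le_log_iff_exp_le (q_pos (abs_av hG hF u))]
      exact q_ge (abs_av hG hF u)
    have h4 := rhoS_le (k := k) hG hF u
    have h5 : c1 * rhoS μ k S τ u - δ ≤ c1 := by nlinarith
    have h6 := mul_le_mul_of_nonneg_left h5 (by positivity : 0 ≤ r ^ 2 / 2)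
    have h7 := mul_le_mul_of_nonneg_left h3 hp
    linarith

lemma lower_int (hG : GM μ S M0) (hF : Flip μ S R τ σ) (hx0 : 0 ≤ x) (hx1 : x ≤ 1)
    (hc0 : 0 ≤ c1) (hc1 : c1 ≤ 1) {δ s : ℝ} (hδ : 0 ≤ δ) (hδ1 : δ ≤ 1) (hs : |s| ≤ 1 / 4)
    (K : Finset ι) (z : ι → ℝ) (q : Ω × Ω) :
    wn (g1 ι) K (W2 μ k S x q) z *
      (1 - (2 - x) * (s * cx (g1 ι) K (W2 μ k S x q) (avm μ k S σ) z) +
        s ^ 2 / 2 * (cx (g1 ι) K (W2 μ k S x q) (kapT μ k S τ σ (2 - x) c1) z - δ) -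
        24 * |s| ^ 3) ≤
      ∫ G, fR μ k S τ σ x c1 δ s q (glue K z G) ∂(gI ι) := by
  obtain ⟨p, hp⟩ : ∃ p : ℝ, p = 2 - x := ⟨_, rfl⟩
  have hp1 : 1 ≤ p := by linarith
  have hp2 : p ≤ 2 := by linarith
  have hw : Wt (g1 ι) (W2 μ k S x q) := wt_W2 hG k x q
  have hBm : BM (avm μ k S σ) := hG.bm_avm k hF.bm
  have hBk : BM (kapT μ k S τ σ p c1) := bm_kapT hG hF k p c1
  have hE := bm_E (c1 := c1) hG hF k s (by linarith : 0 ≤ p) hc0 hδ
  have hL : BM fun u => (1 - s ^ 2 / 2 * δ - 24 * |s| ^ 3) + (-(p * s)) * avm μ k S σ u +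
      s ^ 2 / 2 * kapT μ k S τ σ p c1 u :=
    ((BM.const _).add ((BM.const _).mul hBm)).add ((BM.const _).mul hBk)
  have h1 : cx (g1 ι) K (W2 μ k S x q) (fun u => (1 - s ^ 2 / 2 * δ - 24 * |s| ^ 3) +
      (-(p * s)) * avm μ k S σ u + s ^ 2 / 2 * kapT μ k S τ σ p c1 u) z =
      (1 - s ^ 2 / 2 * δ - 24 * |s| ^ 3) +
      (-(p * s)) * cx (g1 ι) K (W2 μ k S x q) (avm μ k S σ) z +
      s ^ 2 / 2 * cx (g1 ι) K (W2 μ k S x q) (kapT μ k S τ σ p c1) z := by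
    rw [cx_add hw ((BM.const _).add ((BM.const _).mul hBm)) ((BM.const _).mul hBk),
      cx_add hw (BM.const _) ((BM.const _).mul hBm), cx_const_mul hw, cx_const_mul hw,
      cx_dep hw (Q := fun _ => (1 - s ^ 2 / 2 * δ - 24 * |s| ^ 3)) (fun _ _ => rfl)]
  have h2 := wn_mul_cx hw (Ψ := fun u => (1 - s ^ 2 / 2 * δ - 24 * |s| ^ 3) +
      (-(p * s)) * avm μ k S σ u + s ^ 2 / 2 * kapT μ k S τ σ p c1 u) K z
  rw [h1] at h2
  rw [← hp]
  have h3 : wn (g1 ι) K (W2 μ k S x q) z *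
      (1 - p * (s * cx (g1 ι) K (W2 μ k S x q) (avm μ k S σ) z) +
        s ^ 2 / 2 * (cx (g1 ι) K (W2 μ k S x q) (kapT μ k S τ σ p c1) z - δ) -
        24 * |s| ^ 3) = ∫ G, W2 μ k S x q (glue K z G) *
          ((1 - s ^ 2 / 2 * δ - 24 * |s| ^ 3) + (-(p * s)) * avm μ k S σ (glue K z G) +
            s ^ 2 / 2 * kapT μ k S τ σ p c1 (glue K z G)) ∂(gI ι) := by
    rw [← h2]
    ring
  rw [h3]
  refine integral_mono (hw.sec_mul K z hL) ?_ fun G => ?_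
  · have h4 := hw.sec_mul K z hE
    rw [hp] at h4
    exact h4
  · show W2 μ k S x q (glue K z G) * _ ≤ W2 μ k S x q (glue K z G) * _
    refine mul_le_mul_of_nonneg_left ?_ (hw.pos _).le
    rw [← hp]
    have h5 := rhoS_le (k := k) hG hF (glue K z G)
    have h6 := rhoS_nonneg (k := k) (τ := τ) hG (glue K z G)
    have h7 : |c1 * rhoS μ k S τ (glue K z G) - δ| ≤ 1 := by
      rw [abs_le]
      constructor <;> nlinarith
    refine le_trans (le_of_eq ?_) (tay hs (abs_av (k := k) hG hF (glue K z G)) hp1 hp2 h7)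
    unfold kapT
    ring

/-- **second order inequality for a pair** -/
theorem pair_ineq (hG : GM μ S M0) (hF : Flip μ S R τ σ) (hx0 : 0 ≤ x) (hx1 : x ≤ 1)
    (hc0 : 0 ≤ c1) (hc1 : c1 ≤ 1) (hm : MidS μ k S τ σ x c1) (K : Finset ι) (z : ι → ℝ)
    (q : Ω × Ω) :
    cx (g1 ι) K (W2 μ k S x q) (kapT μ k S τ σ (2 - x) c1) z ≤
      (2 - x) ^ 2 * cx (g1 ι) K (W2 μ k S x q) (avm μ k S σ) z ^ 2 := by
  obtain ⟨p, hp⟩ : ∃ p : ℝ, p = 2 - x := ⟨_, rfl⟩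
  have hp1 : 1 ≤ p := by linarith
  have hp2 : p ≤ 2 := by linarith
  have hw : Wt (g1 ι) (W2 μ k S x q) := wt_W2 hG k x q
  have hBm : BM (avm μ k S σ) := hG.bm_avm k hF.bm
  have hBk : BM (kapT μ k S τ σ (2 - x) c1) := bm_kapT hG hF k (2 - x) c1
  obtain ⟨Q, hQ⟩ : ∃ Q : ℝ, Q = cx (g1 ι) K (W2 μ k S x q) (kapT μ k S τ σ (2 - x) c1) z :=
    ⟨_, rfl⟩
  obtain ⟨M, hM⟩ : ∃ M : ℝ, M = cx (g1 ι) K (W2 μ k S x q) (avm μ k S σ) z := ⟨_, rfl⟩
  have hA := hw.wn_pos K z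
  have hM1 : |M| ≤ 1 := by
    rw [hM]
    exact hw.abs_cx_le K hBm (fun u => abs_av hG hF u) z
  have hQ2 : -2 ≤ Q := by
    rw [hQ]
    have h1 := cx_mono hw (K := K) (BM.const (-2)) hBk (fun u => by
      have h2 := abs_av (k := k) hG hF u
      have h3 := rhoS_nonneg (k := k) (τ := τ) hG u
      have h4 : avm μ k S σ u ^ 2 ≤ 1 := by
        rw [← sq_abs]
        nlinarith [abs_nonneg (avm μ k S σ u)]
      unfold kapT
      have h5 := mul_nonneg hc0 h3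
      have h6 : 0 ≤ (2 - x) ^ 2 * avm μ k S σ u ^ 2 := by positivity
      have h7 : (2 - x) * (1 - avm μ k S σ u ^ 2) ≤ 2 := by
        nlinarith [sq_nonneg (avm μ k S σ u)]
      linarith) z
    rwa [cx_dep hw (Q := fun _ => (-2 : ℝ)) (fun _ _ => rfl)] at h1
  rw [← hQ, ← hM]
  -- it suffices to have the inequality up to `δ + 48 r`
  have key : ∀ δ : ℝ, 0 < δ → δ ≤ 1 → ∃ r1 : ℝ, 0 < r1 ∧ ∀ r : ℝ, 0 < r → r ≤ r1 →
      Q ≤ (2 - x) ^ 2 * M ^ 2 + δ + 48 * r := by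
    intro δ hδ hδ1
    obtain ⟨r0, hr0, h0⟩ := hm δ hδ
    refine ⟨min r0 (1 / 16), by positivity, fun r hr hr1 => ?_⟩
    have hrr0 : |r| ≤ r0 := by
      rw [abs_of_pos hr]
      exact hr1.trans (min_le_left _ _)
    have hr16 : r ≤ 1 / 16 := hr1.trans (min_le_right _ _)
    have e1 : |r| = r := abs_of_pos hr
    have e2 : |(-r)| = r := by rw [abs_neg, e1]
    have h1 := lower_int (k := k) (K := K) (z := z) (q := q) (s := r) hG hF hx0 hx1 hc0 hc1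
      hδ.le hδ1 (by rw [e1]; linarith)
    have h2 := lower_int (k := k) (K := K) (z := z) (q := q) (s := -r) hG hF hx0 hx1 hc0 hc1
      hδ.le hδ1 (by rw [e2]; linarith)
    rw [← hQ, ← hM, e1] at h1
    rw [← hQ, ← hM, e2, neg_sq] at h2
    have hms : ∀ s, Measurable fun G => fR μ k S τ σ x c1 δ s q (glue K z G) := fun s =>
      ((wt_W2 hG k x q).meas.mul (bm_E (c1 := c1) hG hF k s (by linarith : 0 ≤ 2 - x) hc0
        hδ.le).meas).comp (measurable_glue_right K z)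
    have hpos : ∀ s G, 0 ≤ fR μ k S τ σ x c1 δ s q (glue K z G) := fun s G =>
      mul_nonneg (W2_pos _ _ _).le (Real.exp_pos _).le
    have h3 := pl_gauss (f := fun G => fR μ k S τ σ x c1 δ r q (glue K z G))
      (g := fun G => fR μ k S τ σ x c1 δ (-r) q (glue K z G))
      (h := fun G => W2 μ k S x q (glue K z G)) (hms r) (hms (-r))
      (hw.meas.comp (measurable_glue_right K z)) (hpos r) (hpos (-r)) (fun G => (hw.pos _).le)
      (hw.sec K z) (fun G D => by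
        show fR μ k S τ σ x c1 δ r q (glue K z (G + D)) *
          fR μ k S τ σ x c1 δ (-r) q (glue K z (G - D)) ≤ _
        rw [glue_add, glue_sub]
        refine (fR_mul hG hF h0 hrr0 _ _ q).trans ?_
        exact mul_le_mul_of_nonneg_left (Real.exp_le_exp.2 (glue_zero_sq K D)) (by positivity))
    refine real_step hA hr hr16 (by linarith : 1 ≤ 2 - x) (by linarith) hM1 hQ2 hδ1 h1
      (le_trans (le_of_eq ?_) h2) h3
    ring
  by_contra hc
  obtain ⟨ε, hε⟩ : ∃ ε : ℝ, ε = Q - (2 - x) ^ 2 * M ^ 2 := ⟨_, rfl⟩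
  have hε0 : 0 < ε := by linarith
  obtain ⟨r1, hr1, h1⟩ := key (min 1 (ε / 4)) (by positivity) (min_le_left _ _)
  have h2 := h1 (min r1 (ε / 200)) (by positivity) (min_le_left _ _)
  have h3 := min_le_right (1 : ℝ) (ε / 4)
  have h4 := min_le_right r1 (ε / 200)
  linarith

end Vale.Agent.P146.H116
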