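import Vale.Agent.P146.H116.K3F

/-!
(K3), part B: the sum of the second order inequality over the pairs with different spins.
-/

open MeasureTheory ProbabilityTheory Filter Topology

namespace Vale.Agent.P146.H116

open Vale.Agent.P157.Lv Vale.Agent.P146.H425 Vale.Agent.P146.H325 Vale.Agent.P146.R1
  Vale.Agent.P146.H646 Vale.Agent.P146.H196 Vale.Agent.P146.H347 Vale.Agent.P146.H355

set_option linter.unusedSectionVars false

variable {ι : Type} [Fintype ι] [DecidableEq ι] {Ω : Type} [MeasurableSpace Ω]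
variable {μ : Measure Ω} {k M0 x c1 : ℝ} {S : ι → Ω → ℝ} {R K : Finset ι} {τ : Ω → Ω} {σ : Ω → ℝ}

/-- the sum over the pairs with different spins -/
lemma sum_pairs (hG : GM μ S M0) (hF : Flip μ S R τ σ) (k x : ℝ) {Φ : (ι → ℝ) → ℝ}
    (hΦ : BM Φ) (K : Finset ι) (z : ι → ℝ) :
    ∫ q, (1 - σ q.1 * σ q.2) / 2 * (wn (g1 ι) K (W2 μ k S x q) z *
        cx (g1 ι) K (W2 μ k S x q) Φ z) ∂(μ.prod μ) =
      wn (g1 ι) K (Zxm μ k S x) z *
        (1 / 2 * cx (g1 ι) K (Zxm μ k S x) (fun u => (1 - avm μ k S σ u ^ 2) * Φ u) z) := by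
  have := hG.fin
  have hwx : Wt (g1 ι) (Zxm μ k S x) := hG.wt k x
  obtain ⟨C, hC⟩ := hΦ.bd
  have hm : Measurable fun p : (Ω × Ω) × (ι → ℝ) =>
      (1 - σ p.1.1 * σ p.1.2) / 2 * Φ (glue K z p.2) := by
    have h1 := hF.meas
    have h2 : Measurable fun p : (Ω × Ω) × (ι → ℝ) => Φ (glue K z p.2) :=
      hΦ.meas.comp ((measurable_glue_right K z).comp measurable_snd)
    have h3 : Measurable fun p : (Ω × Ω) × (ι → ℝ) => σ p.1.1 :=
      h1.comp (measurable_fst.comp measurable_fst)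
    have h4 : Measurable fun p : (Ω × Ω) × (ι → ℝ) => σ p.1.2 :=
      h1.comp (measurable_snd.comp measurable_fst)
    exact ((measurable_const.sub (h3.mul h4)).div_const 2).mul h2
  have hss : ∀ a b, |(1 - σ a * σ b) / 2| ≤ 1 := fun a b => by
    have h1 : |σ a * σ b| ≤ 1 := by rw [abs_mul, hF.abs, hF.abs, one_mul]
    rw [abs_le] at h1 ⊢
    constructor <;> linarith
  have hI := int_W2_glue hG k x K z hm (C := C) (fun q => by
    rw [abs_mul]
    calc |(1 - σ q.1.1 * σ q.1.2) / 2| * |Φ (glue K z q.2)| ≤ 1 * C :=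
          mul_le_mul (hss _ _) (hC _) (abs_nonneg _) (by norm_num)
      _ = C := one_mul C)
  have hsw := integral_integral_swap (μ := μ.prod μ) (ν := gI ι)
    (f := fun q G => W2 μ k S x q (glue K z G) *
      ((1 - σ q.1 * σ q.2) / 2 * Φ (glue K z G))) hI
  have hL : ∫ q, (1 - σ q.1 * σ q.2) / 2 * (wn (g1 ι) K (W2 μ k S x q) z *
        cx (g1 ι) K (W2 μ k S x q) Φ z) ∂(μ.prod μ) =
      ∫ q, ∫ G, W2 μ k S x q (glue K z G) *
      ((1 - σ q.1 * σ q.2) / 2 * Φ (glue K z G)) ∂(gI ι) ∂(μ.prod μ) := by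
    refine integral_congr_ae (Filter.Eventually.of_forall fun q => ?_)
    show (1 - σ q.1 * σ q.2) / 2 * (wn (g1 ι) K (W2 μ k S x q) z *
        cx (g1 ι) K (W2 μ k S x q) Φ z) = _
    rw [wn_mul_cx (wt_W2 hG k x q) K z, ← integral_const_mul]
    refine integral_congr_ae (Filter.Eventually.of_forall fun G => ?_)
    show _ * (_ * _) = _ * (_ * _)
    ring
  rw [hL, hsw]
  have h1 : wn (g1 ι) K (Zxm μ k S x) z *
        (1 / 2 * cx (g1 ι) K (Zxm μ k S x) (fun u => (1 - avm μ k S σ u ^ 2) * Φ u) z) =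
      ∫ G, 1 / 2 * (Zxm μ k S x (glue K z G) *
        ((1 - avm μ k S σ (glue K z G) ^ 2) * Φ (glue K z G))) ∂(gI ι) := by
    rw [integral_const_mul, ← wn_mul_cx hwx (Ψ := fun u => (1 - avm μ k S σ u ^ 2) * Φ u) K z]
    ring
  rw [h1]
  refine integral_congr_ae (Filter.Eventually.of_forall fun G => ?_)
  obtain ⟨u, hu⟩ : ∃ u : ι → ℝ, u = glue K z G := ⟨_, rfl⟩
  beta_reduce
  rw [← hu]
  have h2 := int_p hG k x (f := σ) (g := σ) u
  have h3 := int_p_one hG k x u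
  have hm1 : Integrable (fun q : Ω × Ω => W2 μ k S x q u) (μ.prod μ) := by
    obtain ⟨D, a, hD, ha, hb⟩ := W2_bd hG k x
    refine (integrable_const (D * Real.exp (a * ‖u‖))).mono' ?_
      (Filter.Eventually.of_forall fun q => ?_)
    · exact ((meas_W2 hG k x).comp (measurable_id.prodMk measurable_const)).aestronglyMeasurable
    · rw [Real.norm_eq_abs, abs_of_pos (W2_pos x q u)]
      exact hb q u
  have hm2 : Integrable (fun q : Ω × Ω => W2 μ k S x q u * (σ q.1 * σ q.2)) (μ.prod μ) := by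
    refine Integrable.mul_bdd (c := 1) hm1 ?_ (Filter.Eventually.of_forall fun q => ?_)
    · exact ((hF.meas.comp measurable_fst).mul (hF.meas.comp measurable_snd)).aestronglyMeasurable
    · rw [Real.norm_eq_abs, abs_mul, hF.abs, hF.abs, one_mul]
  have h4 : (fun q : Ω × Ω => W2 μ k S x q u * ((1 - σ q.1 * σ q.2) / 2 * Φ u)) =
      fun q => (Φ u / 2) * (W2 μ k S x q u - W2 μ k S x q u * (σ q.1 * σ q.2)) := by
    funext q
    ring
  rw [h4, integral_const_mul, integral_sub hm1 hm2, h2, h3]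
  ring

lemma int_pair (hG : GM μ S M0) (k x : ℝ) (K : Finset ι) (z : ι → ℝ) {Φ : (Ω × Ω) → ℝ}
    (hm : Measurable Φ) {C : ℝ} (hC : ∀ q, |Φ q| ≤ C) :
    Integrable (fun q => wn (g1 ι) K (W2 μ k S x q) z * Φ q) (μ.prod μ) := by
  have := hG.fin
  have h2 : Integrable (fun q => wn (g1 ι) K (W2 μ k S x q) z) (μ.prod μ) := by
    have h3 := int_W2_glue hG k x K z (Φ := fun _ => 1) measurable_const (C := 1)
      (fun _ => by simp)
    simp only [mul_one] at h3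
    exact h3.integral_prod_left
  exact Integrable.mul_bdd (c := C) h2 hm.aestronglyMeasurable
    (Filter.Eventually.of_forall fun q => by rw [Real.norm_eq_abs]; exact hC q)

lemma hs0 (hF : Flip μ S R τ σ) (q : Ω × Ω) : 0 ≤ (1 - σ q.1 * σ q.2) / 2 := by
  have h1 : |σ q.1 * σ q.2| ≤ 1 := by rw [abs_mul, hF.abs, hF.abs, one_mul]
  rw [abs_le] at h1
  linarith

lemma hs1 (hF : Flip μ S R τ σ) (q : Ω × Ω) : (1 - σ q.1 * σ q.2) / 2 ≤ 1 := by
  have h1 : |σ q.1 * σ q.2| ≤ 1 := by rw [abs_mul, hF.abs, hF.abs, one_mul]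
  rw [abs_le] at h1
  linarith

lemma hsm (hF : Flip μ S R τ σ) : Measurable fun q : Ω × Ω => (1 - σ q.1 * σ q.2) / 2 :=
  (measurable_const.sub ((hF.meas.comp measurable_fst).mul
    (hF.meas.comp measurable_snd))).div_const 2

lemma hcm (hG : GM μ S M0) (k x : ℝ) (K : Finset ι) (z : ι → ℝ) {Ψ : (ι → ℝ) → ℝ} (hΨ : BM Ψ) :
    Measurable fun q : Ω × Ω => cx (g1 ι) K (W2 μ k S x q) Ψ z :=
  Measurable.comp (g := fun q : (Ω × Ω) × (ι → ℝ) => cx (g1 ι) K (W2 μ k S x q.1) Ψ q.2)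
    (f := fun q : Ω × Ω => (q, z)) (meas_cx2 hG k x K hΨ.meas)
    (measurable_id.prodMk measurable_const)

lemma int_a (hG : GM μ S M0) (hF : Flip μ S R τ σ) (k x : ℝ) (K : Finset ι) (z : ι → ℝ)
    {Ψ : (ι → ℝ) → ℝ} (hΨ : BM Ψ) :
    Integrable (fun q => (1 - σ q.1 * σ q.2) / 2 * (wn (g1 ι) K (W2 μ k S x q) z *
      cx (g1 ι) K (W2 μ k S x q) Ψ z)) (μ.prod μ) := by
  obtain ⟨C, hC⟩ := hΨ.bd
  have h3 := int_pair hG k x K z (Φ := fun q => (1 - σ q.1 * σ q.2) / 2 *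
    cx (g1 ι) K (W2 μ k S x q) Ψ z) ((hsm hF).mul (hcm hG k x K z hΨ)) (C := C)
    (fun q => by
      rw [abs_mul, abs_of_nonneg (hs0 hF q)]
      have h4 := (wt_W2 hG k x q).abs_cx_le K hΨ hC z
      have h5 : 0 ≤ |cx (g1 ι) K (W2 μ k S x q) Ψ z| := abs_nonneg _
      have h6 := mul_le_mul_of_nonneg_right (hs1 hF q) h5
      linarith)
  refine h3.congr (Filter.Eventually.of_forall fun q => ?_)
  beta_reduce
  ring

lemma int_b (hG : GM μ S M0) (hF : Flip μ S R τ σ) (k x : ℝ) (K : Finset ι) (z : ι → ℝ) :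
    Integrable (fun q => (1 - σ q.1 * σ q.2) / 2 *
      cx (g1 ι) K (W2 μ k S x q) (avm μ k S σ) z ^ 2 *
        wn (g1 ι) K (W2 μ k S x q) z) (μ.prod μ) := by
  have hBm : BM (avm μ k S σ) := hG.bm_avm k hF.bm
  have h3 := int_pair hG k x K z (Φ := fun q => (1 - σ q.1 * σ q.2) / 2 *
    cx (g1 ι) K (W2 μ k S x q) (avm μ k S σ) z ^ 2)
    ((hsm hF).mul ((hcm hG k x K z hBm).pow_const 2)) (C := 1)
    (fun q => by
      have h4 := (wt_W2 hG k x q).abs_cx_le K hBm (fun u => abs_av (k := k) hG hF u) z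
      have h5 : cx (g1 ι) K (W2 μ k S x q) (avm μ k S σ) z ^ 2 ≤ 1 := by
        rw [← sq_abs]
        nlinarith [abs_nonneg (cx (g1 ι) K (W2 μ k S x q) (avm μ k S σ) z)]
      have h6 : 0 ≤ (1 - σ q.1 * σ q.2) / 2 *
          cx (g1 ι) K (W2 μ k S x q) (avm μ k S σ) z ^ 2 :=
        mul_nonneg (hs0 hF q) (sq_nonneg _)
      rw [abs_of_nonneg h6]
      have := mul_le_mul (hs1 hF q) h5 (sq_nonneg _) (by norm_num)
      linarith)
  refine h3.congr (Filter.Eventually.of_forall fun q => ?_)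
  beta_reduce
  ring

/-- **(K3)**, pointwise in the conditioned coordinates -/
theorem k3_main (hG : GM μ S M0) (hF : Flip μ S R τ σ) (hx0 : 0 ≤ x) (hx1 : x ≤ 1)
    (hc0 : 0 ≤ c1) (hc1 : c1 ≤ 1) (hm : MidS μ k S τ σ x c1) (K : Finset ι) (z : ι → ℝ) :
    cx (g1 ι) K (Zxm μ k S x)
      (fun u => (1 - avm μ k S σ u ^ 2) * kapT μ k S τ σ (2 - x) c1 u) z ≤
      2 * (2 - x) ^ 2 * Ma μ k S x K σ z := by
  have := hG.fin
  have hwx : Wt (g1 ι) (Zxm μ k S x) := hG.wt k x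
  have hBk : BM (kapT μ k S τ σ (2 - x) c1) := bm_kapT hG hF k (2 - x) c1
  have h1 := sum_pairs hG hF k x hBk K z
  have hA := hwx.wn_pos K z
  have h2 : ∫ q, (1 - σ q.1 * σ q.2) / 2 * (wn (g1 ι) K (W2 μ k S x q) z *
        cx (g1 ι) K (W2 μ k S x q) (kapT μ k S τ σ (2 - x) c1) z) ∂(μ.prod μ) ≤
      ∫ q, (2 - x) ^ 2 * ((1 - σ q.1 * σ q.2) / 2 *
        cx (g1 ι) K (W2 μ k S x q) (avm μ k S σ) z ^ 2 *
        wn (g1 ι) K (W2 μ k S x q) z) ∂(μ.prod μ) := by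
    refine integral_mono (int_a hG hF k x K z hBk) ((int_b hG hF k x K z).const_mul _)
      fun q => ?_
    beta_reduce
    have h3 := pair_ineq hG hF hx0 hx1 hc0 hc1 hm K z q
    have h4 := (wt_W2 hG k x q).wn_pos K z
    have h5 := mul_le_mul_of_nonneg_left h3 (mul_nonneg (hs0 hF q) h4.le)
    linarith
  rw [h1, integral_const_mul] at h2
  unfold Ma
  rw [mul_div_assoc', le_div_iff₀ hA]
  linarith

end Vale.Agent.P146.H116
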