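import Vale.Agent.P146.H116.K3G
import Vale.Agent.P146.H620.Mid
import Vale.Agent.P146.H620.K3C

/-!
(K3) for every `β`: the conditional mean of `-2 (1 - m ^ 2) (1 - 3 m ^ 2)` is at most a negative
constant plus a multiple of the asymmetry `Ma`, pointwise in the conditioned coordinates.
-/

open MeasureTheory ProbabilityTheory Filter Topology

namespace Vale.Agent.P146.H116

open Vale.Agent.P157.Lv Vale.Agent.P146.H425 Vale.Agent.P146.H325 Vale.Agent.P146.R1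
  Vale.Agent.P146.H646 Vale.Agent.P146.H196 Vale.Agent.P146.H347 Vale.Agent.P146.H355

set_option linter.unusedSectionVars false

variable {ι : Type} [Fintype ι] [DecidableEq ι] {Ω : Type} [MeasurableSpace Ω]
variable {μ : Measure Ω} {k M0 x b2 : ℝ} {S : ι → Ω → ℝ} {R K : Finset ι} {τ : Ω → Ω} {σ : Ω → ℝ}

/-- the constant of the remainder -/
noncomputable def cR (b2 : ℝ) : ℝ := min (1 / 4) (1 / (4 * b2))

lemma cR_pos (hb : 0 < b2) : 0 < cR b2 := by
  unfold cR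
  positivity

lemma cR_le (b2 : ℝ) : cR b2 ≤ 1 := (min_le_left _ _).trans (by norm_num)

/-- the inequality at the midpoint (helper620) -/
theorem midS (hG : GM μ S M0) (hF : Flip μ S R τ σ) (k : ℝ) (hx1 : x ≤ 1) (hb0 : 0 < b2)
    (hb : ∀ w, ∑ e ∈ R, (k * S e w) ^ 2 ≤ b2) : MidS μ k S τ σ x (cR b2) := by
  intro δ hδ
  obtain ⟨r0, hr0, h⟩ := H620.Mid.star hG hF k hb0 hb hδ
  exact ⟨r0, hr0, fun r hr u D => h r hr u D (2 - x) (by linarith)⟩

/-- **(K3) for every `β`**, pointwise in the conditioned coordinates -/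
theorem k3_all (hG : GM μ S M0) (hF : Flip μ S R τ σ) (k : ℝ) (hx0 : 0 ≤ x) (hx1 : x ≤ 1)
    (hb0 : 0 < b2) (hb : ∀ w, ∑ e ∈ R, (k * S e w) ^ 2 ≤ b2) (hK : K ⊆ Rᶜ) (z : ι → ℝ) :
    cx (g1 ι) K (Zxm μ k S x)
      (fun u => -(2 * (1 - avm μ k S σ u ^ 2) * (1 - 3 * avm μ k S σ u ^ 2))) z ≤
      -(cR b2 * Real.exp (-(6 * b2))) + 2 * (2 - x) ^ 2 * Ma μ k S x K σ z + x := by
  have hwx : Wt (g1 ι) (Zxm μ k S x) := hG.wt k x
  have h1 := k3_main hG hF hx0 hx1 (cR_pos hb0).le (cR_le b2) (midS hG hF k hx1 hb0 hb) K z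
  have h2 := H620.K3C.k3_C hG hF k hb hx0 hx1 hK z
  have hBm : BM (avm μ k S σ) := hG.bm_avm k hF.bm
  have hB2 : BM fun u => avm μ k S σ u ^ 2 := by
    simpa only [pow_two] using hBm.mul hBm
  have hB1 : BM fun u => 1 - avm μ k S σ u ^ 2 := (BM.const 1).sub hB2
  have hBr : BM fun u => (1 - avm μ k S σ u ^ 2) * rhoS μ k S τ u := hB1.mul (bm_rhoS hG hF k)
  have hBk : BM fun u => (1 - avm μ k S σ u ^ 2) * kapT μ k S τ σ (2 - x) (cR b2) u :=
    hB1.mul (bm_kapT hG hF k (2 - x) (cR b2))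
  have hB0 : BM fun u => -(2 * (1 - avm μ k S σ u ^ 2) * (1 - 3 * avm μ k S σ u ^ 2)) := by
    have h3 : BM fun u => 2 * (1 - avm μ k S σ u ^ 2) * (1 - 3 * avm μ k S σ u ^ 2) :=
      ((BM.const 2).mul hB1).mul ((BM.const 1).sub ((BM.const 3).mul hB2))
    exact h3.neg
  have h3 := cx_mono hwx (K := K) hB0 ((hBk.add ((BM.const (-cR b2)).mul hBr)).add
    (BM.const x)) (fun u => by
      have h4 := abs_av (k := k) hG hF u
      have h5 : avm μ k S σ u ^ 2 ≤ 1 := by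
        rw [← sq_abs]
        nlinarith [abs_nonneg (avm μ k S σ u)]
      have h6 := sq_nonneg (avm μ k S σ u)
      obtain ⟨s, hs⟩ : ∃ s : ℝ, s = avm μ k S σ u ^ 2 := ⟨_, rfl⟩
      unfold kapT
      rw [← hs] at h5 h6 ⊢
      have h7 : x * ((1 - s) * ((4 - x) * s - (1 - s))) ≤ x := by
        have h8 : (1 - s) * ((4 - x) * s - (1 - s)) ≤ 1 := by
          nlinarith [mul_nonneg (sub_nonneg.2 h5) h6, sq_nonneg (2 * s - 1),
            mul_nonneg (mul_nonneg (sub_nonneg.2 h5) h6) hx0, sq_nonneg (1 - s)]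
        nlinarith
      linarith [h7, (by ring : (1 - s) * ((2 - x) ^ 2 * s - (2 - x) * (1 - s) +
        cR b2 * rhoS μ k S τ u) + -cR b2 * ((1 - s) * rhoS μ k S τ u) =
        -(2 * (1 - s) * (1 - 3 * s)) - x * ((1 - s) * ((4 - x) * s - (1 - s))))]) z
  rw [cx_add hwx (hBk.add ((BM.const (-cR b2)).mul hBr)) (BM.const x),
    cx_add hwx hBk ((BM.const (-cR b2)).mul hBr), cx_const_mul hwx,
    cx_dep hwx (Q := fun _ => x) (fun _ _ => rfl)] at h3
  have h4 := mul_le_mul_of_nonneg_left h2 (cR_pos hb0).le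
  linarith

end Vale.Agent.P146.H116
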